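import Mathlib
import Vale.Agent.Lib.P243.Coord
import Vale.Agent.Lib.P243.CapMain
import Vale.Agent.Lib.P243.helper18.Directionwise
import Vale.Agent.Lib.P243.helper18.TetraMain
import Vale.Agent.Lib.P243.helper18.SymMain

namespace Vale.Agent.Results.P243.All

open MeasureTheory Vale.Agent.Lib.P243

/-- Five results on Bang's half-area cylinder covering problem in Euclidean 3-space.

Throughout, a cylinder is given by an orthonormal pair `(a, b)` spanning its base plane and a
set `S ⊆ ℝ × ℝ`: it is the set `planeCoords a b ⁻¹' S` of all points `x` whose orthogonal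
projection onto that plane has coordinates `(⟪x, a⟫, ⟪x, b⟫)` in `S`, and its base area is the
Lebesgue (outer) measure of `S`.  The set `planeCoords a b '' K` is the orthogonal projection of
`K` onto the same plane, in the same coordinates, and the infimum over all orthonormal pairs is
the minimal area of an orthogonal projection of `K`.  A convex body is a compact convex set with
nonempty interior.

* Part 1 (any number `m` of cylinders): if a convex body `K` is covered by `m` cylinders and
  `x i = min 1 (area (S i) / area (projection i of K))`, then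
  `∑ i, (3 * x i - 2 * x i * √(x i)) ≥ 1`, and the base areas divided by the areas of the
  corresponding projections of `K` add up to at least `1 / 3 + 2 / (9 * √(3 * m))`.
* Part 2 (centrally symmetric bodies): if a convex body `K` symmetric about a point `c` is
  covered by finitely many cylinders, the base areas divided by the areas of the corresponding
  projections add up to at least `5 / 12`, and the base areas add up to at least `5 / 12` of
  the minimal projection area.
* Part 3 (two cylinders): if a convex body `K` is covered by two cylinders, the base areas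
  divided by the areas of the corresponding projections of `K` add up to at least `1 / 2`.
* Part 4 (axes parallel to a plane): if a compact convex set `K` is covered by finitely many
  cylinders whose axis vectors `u i` (nonzero, orthogonal to the base plane) are all orthogonal
  to one nonzero vector `e`, the base areas add up to at least half the minimal projection area.
* Part 5 (tetrahedron, axes parallel to edges): if a tetrahedron with affinely independent
  vertices `v 0, …, v 3` is covered by finitely many cylinders each of whose axes is parallel to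
  an edge `v j v k` (the two vertices have the same coordinates in the base plane), then the
  base areas divided by the areas of the corresponding projections add up to at least `1 / 2`,
  and the base areas add up to at least half the minimal projection area. -/
theorem result :
    (∀ (K : Set (EuclideanSpace ℝ (Fin 3))), Convex ℝ K → IsCompact K → (interior K).Nonempty →
      ∀ (m : ℕ) (a b : Fin m → EuclideanSpace ℝ (Fin 3)), (∀ i, OrthoPair (a i) (b i)) →
      ∀ (S : Fin m → Set (ℝ × ℝ)), K ⊆ ⋃ i, planeCoords (a i) (b i) ⁻¹' S i →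
        (1 ≤ ∑ i, (3 * (min 1 (volume (S i) / volume (planeCoords (a i) (b i) '' K))).toReal
            - 2 * (min 1 (volume (S i) / volume (planeCoords (a i) (b i) '' K))).toReal
              * Real.sqrt (min 1 (volume (S i) / volume (planeCoords (a i) (b i) '' K))).toReal))
        ∧ ENNReal.ofReal (1 / 3 + 2 / (9 * Real.sqrt (3 * m)))
            ≤ ∑ i, volume (S i) / volume (planeCoords (a i) (b i) '' K))
    ∧ (∀ (K : Set (EuclideanSpace ℝ (Fin 3))), Convex ℝ K → IsCompact K → (interior K).Nonempty →
      ∀ (c : EuclideanSpace ℝ (Fin 3)), (∀ x ∈ K, c + c - x ∈ K) →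
      ∀ (m : ℕ) (a b : Fin m → EuclideanSpace ℝ (Fin 3)), (∀ i, OrthoPair (a i) (b i)) →
      ∀ (S : Fin m → Set (ℝ × ℝ)), K ⊆ ⋃ i, planeCoords (a i) (b i) ⁻¹' S i →
        (5 / 12 : ENNReal) ≤ ∑ i, volume (S i) / volume (planeCoords (a i) (b i) '' K)
          ∧ (5 / 12 : ENNReal) * (⨅ (a' : EuclideanSpace ℝ (Fin 3))
              (b' : EuclideanSpace ℝ (Fin 3)) (_ : OrthoPair a' b'),
              volume (planeCoords a' b' '' K)) ≤ ∑ i, volume (S i))
    ∧ (∀ (K : Set (EuclideanSpace ℝ (Fin 3))), Convex ℝ K → IsCompact K → (interior K).Nonempty →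
      ∀ (a₁ b₁ a₂ b₂ : EuclideanSpace ℝ (Fin 3)), OrthoPair a₁ b₁ → OrthoPair a₂ b₂ →
      ∀ (S₁ S₂ : Set (ℝ × ℝ)),
        K ⊆ planeCoords a₁ b₁ ⁻¹' S₁ ∪ planeCoords a₂ b₂ ⁻¹' S₂ →
        (1 / 2 : ENNReal) ≤ volume S₁ / volume (planeCoords a₁ b₁ '' K)
          + volume S₂ / volume (planeCoords a₂ b₂ '' K))
    ∧ (∀ (K : Set (EuclideanSpace ℝ (Fin 3))), Convex ℝ K → IsCompact K →
      ∀ (m : ℕ) (a b u : Fin m → EuclideanSpace ℝ (Fin 3)), (∀ i, OrthoPair (a i) (b i)) →
        (∀ i, u i ≠ 0 ∧ inner ℝ (u i) (a i) = 0 ∧ inner ℝ (u i) (b i) = 0) →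
      ∀ (e : EuclideanSpace ℝ (Fin 3)), e ≠ 0 → (∀ i, inner ℝ (u i) e = 0) →
      ∀ (S : Fin m → Set (ℝ × ℝ)), K ⊆ ⋃ i, planeCoords (a i) (b i) ⁻¹' S i →
        (1 / 2 : ENNReal) * (⨅ (a' : EuclideanSpace ℝ (Fin 3)) (b' : EuclideanSpace ℝ (Fin 3))
          (_ : OrthoPair a' b'), volume (planeCoords a' b' '' K)) ≤ ∑ i, volume (S i))
    ∧ (∀ (v : Fin 4 → EuclideanSpace ℝ (Fin 3)), AffineIndependent ℝ v →
      ∀ (m : ℕ) (a b : Fin m → EuclideanSpace ℝ (Fin 3)), (∀ i, OrthoPair (a i) (b i)) →
        (∀ i, ∃ j k : Fin 4, j ≠ k ∧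
          planeCoords (a i) (b i) (v j) = planeCoords (a i) (b i) (v k)) →
      ∀ (S : Fin m → Set (ℝ × ℝ)),
        convexHull ℝ (Set.range v) ⊆ ⋃ i, planeCoords (a i) (b i) ⁻¹' S i →
        (1 / 2 : ENNReal) ≤ ∑ i, volume (S i)
            / volume (planeCoords (a i) (b i) '' convexHull ℝ (Set.range v))
          ∧ (1 / 2 : ENNReal) * (⨅ (a' : EuclideanSpace ℝ (Fin 3))
              (b' : EuclideanSpace ℝ (Fin 3)) (_ : OrthoPair a' b'),
              volume (planeCoords a' b' '' convexHull ℝ (Set.range v))) ≤ ∑ i, volume (S i)) := by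
  refine ⟨?_, ?_, ?_, ?_, ?_⟩
  · intro K hKconv hKc hKint m a b hab S hcov
    refine ⟨Cap.capture_sum K hKconv hKc hKint m a b hab S hcov, ?_⟩
    have h := Cap.capture_bound K hKconv hKc hKint m a b hab S hcov
    rw [Real.sqrt_mul (by norm_num : (0 : ℝ) ≤ 3) (m : ℝ), ← mul_assoc]
    exact h
  · intro K hKconv hKc hKint c hsym m a b hab S hcov
    exact ⟨H18.sym_bodies K hKconv hKc hKint c hsym a b hab S hcov,
      H18.sym_bodies_amin K hKconv hKc hKint c hsym a b hab S hcov⟩
  · intro K hKconv hKc hKint a₁ b₁ a₂ b₂ h₁ h₂ S₁ S₂ hcov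
    exact H18.directionwise_two K hKconv hKc hKint a₁ b₁ a₂ b₂ h₁ h₂ S₁ S₂ hcov
  · intro K hKconv hKc m a b u hab hu e he hue S hcov
    exact coord_coplanar K hKconv hKc a b u hab hu e he hue S hcov
  · intro v hv m a b hab hedge S hcov
    exact ⟨H18.tetra_edges v hv a b hab hedge S hcov,
      H18.tetra_edges_amin v hv a b hab hedge S hcov⟩

end Vale.Agent.Results.P243.All
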