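import Mathlib
import Vale.Agent.Lib.P243.CapMain
import Vale.Agent.Lib.P243.CapDir

namespace Vale.Agent.Results.P243.AxisDirections

open MeasureTheory Vale.Agent.Lib.P243

/-- Bounds for coverings of a convex body by finitely many cylinders in terms of the number of
distinct axis directions, in the directionwise form of Bang's half-area problem.

A cylinder is given by an orthonormal pair `(a, b)` spanning its base plane and a set
`S ⊆ ℝ × ℝ`: it is the set `planeCoords a b ⁻¹' S` of all points `x` of Euclidean 3-space whose
orthogonal projection onto that plane has coordinates `(⟪x, a⟫, ⟪x, b⟫)` in `S`, and its base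
area is the Lebesgue (outer) measure of `S`.  The set `planeCoords a b '' K` is the orthogonal
projection of `K` onto the same plane, in the same coordinates.  The relative area of cylinder
`i` is `r i = area (S i) / area (projection i of K)`.

Let a convex body `K` (compact, convex, nonempty interior) be covered by `m` cylinders.

* Part 1 (no further hypothesis): with `x i = min 1 (r i)`,
  `∑ i, (3 * x i - 2 * x i * √(x i)) ≥ 1`, and `∑ i, r i ≥ 1 / 3 + 2 / (9 * √(3 * m))`.
* Part 2 (at most `d` axis directions): suppose that every cylinder `i` is assigned a class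
  `g i` among `d` classes and that each class `k` used has a nonzero vector `u k` orthogonal to
  the base planes of all cylinders of the class (so these cylinders have parallel axes).  Let
  `y k = min 1 (∑ of r i over the cylinders i of class k)`.  Then
  `∑ k, (3 * y k - 2 * y k * √(y k)) ≥ 1`, and `∑ i, r i ≥ 1 / 3 + 2 / (9 * √(3 * d))`;
  moreover `∑ i, r i ≥ 1 / 2` if `d ≤ 2`, and `∑ i, r i ≥ 4 / 9` if `d ≤ 3`. -/
theorem result :
    ∀ (K : Set (EuclideanSpace ℝ (Fin 3))), Convex ℝ K → IsCompact K → (interior K).Nonempty →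
    ∀ (m : ℕ) (a b : Fin m → EuclideanSpace ℝ (Fin 3)), (∀ i, OrthoPair (a i) (b i)) →
    ∀ (S : Fin m → Set (ℝ × ℝ)), K ⊆ ⋃ i, planeCoords (a i) (b i) ⁻¹' S i →
      ((1 ≤ ∑ i, (3 * (min 1 (volume (S i) / volume (planeCoords (a i) (b i) '' K))).toReal
          - 2 * (min 1 (volume (S i) / volume (planeCoords (a i) (b i) '' K))).toReal
            * Real.sqrt (min 1 (volume (S i) / volume (planeCoords (a i) (b i) '' K))).toReal))
        ∧ ENNReal.ofReal (1 / 3 + 2 / (9 * Real.sqrt (3 * m)))
          ≤ ∑ i, volume (S i) / volume (planeCoords (a i) (b i) '' K))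
      ∧ ∀ (d : ℕ) (u : Fin d → EuclideanSpace ℝ (Fin 3)) (g : Fin m → Fin d),
        (∀ i, u (g i) ≠ 0 ∧ inner ℝ (u (g i)) (a i) = 0 ∧ inner ℝ (u (g i)) (b i) = 0) →
        (1 ≤ ∑ k : Fin d,
            (3 * (min 1 (∑ i ∈ Finset.univ.filter (fun i => g i = k),
                  volume (S i) / volume (planeCoords (a i) (b i) '' K))).toReal
              - 2 * (min 1 (∑ i ∈ Finset.univ.filter (fun i => g i = k),
                  volume (S i) / volume (planeCoords (a i) (b i) '' K))).toReal
                * Real.sqrt (min 1 (∑ i ∈ Finset.univ.filter (fun i => g i = k),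
                  volume (S i) / volume (planeCoords (a i) (b i) '' K))).toReal))
          ∧ ENNReal.ofReal (1 / 3 + 2 / (9 * Real.sqrt (3 * d)))
            ≤ ∑ i, volume (S i) / volume (planeCoords (a i) (b i) '' K)
          ∧ (d ≤ 2 →
            (1 / 2 : ENNReal) ≤ ∑ i, volume (S i) / volume (planeCoords (a i) (b i) '' K))
          ∧ (d ≤ 3 →
            (4 / 9 : ENNReal) ≤ ∑ i, volume (S i) / volume (planeCoords (a i) (b i) '' K)) := by
  intro K hKconv hKc hKint m a b hab S hcov
  refine ⟨⟨Cap.capture_sum K hKconv hKc hKint m a b hab S hcov, ?_⟩, ?_⟩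
  · have h := Cap.capture_bound K hKconv hKc hKint m a b hab S hcov
    rw [Real.sqrt_mul (by norm_num : (0 : ℝ) ≤ 3) (m : ℝ), ← mul_assoc]
    exact h
  · intro d u g hax
    refine ⟨Cap.dir_capture_sum K hKconv hKc hKint m d a b hab u g hax S hcov, ?_, ?_, ?_⟩
    · have h := Cap.dir_bound K hKconv hKc hKint m d a b hab u g hax S hcov
      rw [Real.sqrt_mul (by norm_num : (0 : ℝ) ≤ 3) (d : ℝ), ← mul_assoc]
      exact h
    · intro hd2
      have h := Cap.dir_half K hKconv hKc hKint m d hd2 a b hab u g hax S hcov
      rw [Cap.ofReal_half] at h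
      exact h
    · intro hd3
      have h := Cap.dir_fourninths K hKconv hKc hKint m d hd3 a b hab u g hax S hcov
      rw [Cap.ofReal_fourninths] at h
      exact h

end Vale.Agent.Results.P243.AxisDirections
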