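import Mathlib
import Vale.Agent.Lib.P243.helper80.TetraUniform

namespace Vale.Agent.Results.P243.TetraUniform

open MeasureTheory Vale.Agent.Lib.P243

/-- Every finite covering of a tetrahedron by cylinders, with arbitrary axes, has directionwise
relative area at least `317 / 900`, which is larger than the general bound `1 / 3`.

A cylinder is given by an orthonormal pair `a`, `b` spanning its base plane and a set
`S ⊆ ℝ × ℝ`: it is the set `planeCoords a b ⁻¹' S` of all points `x` of Euclidean 3-space whose
orthogonal projection onto that plane has the coordinate pair `⟪x, a⟫`, `⟪x, b⟫` in `S`, and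
its base area is the Lebesgue (outer) measure of `S`.  The set `planeCoords a b '' T` is the
orthogonal projection of `T` onto the same plane, in the same coordinates, and the infimum over
all orthonormal pairs is the minimal area of an orthogonal projection of `T`.

If a tetrahedron `T` with affinely independent vertices `v 0, …, v 3` is covered by finitely
many cylinders (any number `m`, any axis directions, any base sets), then the base areas divided
by the areas of the corresponding projections of `T` add up to at least `317 / 900`, and the
base areas add up to at least `317 / 900` of the minimal projection area of `T`. -/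
theorem result :
    ∀ (v : Fin 4 → EuclideanSpace ℝ (Fin 3)), AffineIndependent ℝ v →
      ∀ (m : ℕ) (a b : Fin m → EuclideanSpace ℝ (Fin 3)), (∀ i, OrthoPair (a i) (b i)) →
      ∀ (S : Fin m → Set (ℝ × ℝ)),
        convexHull ℝ (Set.range v) ⊆ ⋃ i, planeCoords (a i) (b i) ⁻¹' S i →
        ENNReal.ofReal (317 / 900) ≤ ∑ i, volume (S i)
            / volume (planeCoords (a i) (b i) '' convexHull ℝ (Set.range v))
          ∧ ENNReal.ofReal (317 / 900) * (⨅ (a' : EuclideanSpace ℝ (Fin 3))
              (b' : EuclideanSpace ℝ (Fin 3)) (_ : OrthoPair a' b'),
              volume (planeCoords a' b' '' convexHull ℝ (Set.range v))) ≤ ∑ i, volume (S i) :=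
  fun v hv _ a b hab S hcov =>
    ⟨H80.tetra_uniform v hv a b hab S hcov, H80.tetra_uniform_amin v hv a b hab S hcov⟩

end Vale.Agent.Results.P243.TetraUniform
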