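import Mathlib
import Vale.Agent.Lib.P243.R3.helper77.Assembly

namespace Vale.Agent.Results.P243.UniversalBound

open MeasureTheory Vale.Agent.Lib.P243

/-- Cylinder coverings of convex bodies of Euclidean 3-space: a universal constant above `1 / 3`.
There is `ε > 0` such that for every convex body `K` (compact, convex, nonempty interior) and
every finite covering of `K` by cylinders, the base areas divided by the areas of the
corresponding projections of `K` add up to at least `1 / 3 + ε`, and the base areas add up to at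
least `1 / 3 + ε` times the minimal projection area of `K`.
The `i`-th cylinder is given by an orthonormal pair `(a i, b i)` spanning its base plane and a
set `S i ⊆ ℝ × ℝ`: it is the set of all points `x` whose orthogonal projection onto that plane
has coordinates `(⟪x, a i⟫, ⟪x, b i⟫)` in `S i`, and its base area is the Lebesgue (outer)
measure of `S i`.  The set `planeCoords (a i) (b i) '' K` is the orthogonal projection of `K`
onto the base plane of the `i`-th cylinder, in the same coordinates, and the infimum is the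
minimal area of an orthogonal projection of `K`. -/
theorem result :
    ∃ ε : ℝ, 0 < ε ∧ ∀ (K : Set (EuclideanSpace ℝ (Fin 3))), Convex ℝ K → IsCompact K →
      (interior K).Nonempty → ∀ (m : ℕ) (a b : Fin m → EuclideanSpace ℝ (Fin 3)),
      (∀ i, OrthoPair (a i) (b i)) → ∀ S : Fin m → Set (ℝ × ℝ),
      K ⊆ ⋃ i, planeCoords (a i) (b i) ⁻¹' S i →
        ENNReal.ofReal (1 / 3 + ε) ≤ ∑ i, volume (S i) / volume (planeCoords (a i) (b i) '' K)
        ∧ ENNReal.ofReal (1 / 3 + ε) * (⨅ (a' : EuclideanSpace ℝ (Fin 3))
            (b' : EuclideanSpace ℝ (Fin 3)) (_ : OrthoPair a' b'),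
            volume (planeCoords a' b' '' K)) ≤ ∑ i, volume (S i) := by
  obtain ⟨ε, hε, h⟩ := Vale.Agent.Lib.P243.R3.H77.A77_universal
  refine ⟨ε, hε, fun K hKv hKc hKi m a b hab S hcov => ?_⟩
  have h1 := h K hKv hKc hKi m a b hab S hcov
  refine ⟨h1, ?_⟩
  set A : ENNReal := ⨅ (a' : EuclideanSpace ℝ (Fin 3)) (b' : EuclideanSpace ℝ (Fin 3))
    (_ : OrthoPair a' b'), volume (planeCoords a' b' '' K) with hA
  have hle : ∀ i, A ≤ volume (planeCoords (a i) (b i) '' K) := fun i =>
    iInf_le_of_le (a i) (iInf_le_of_le (b i) (iInf_le_of_le (hab i) le_rfl))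
  have h2 : ENNReal.ofReal (1 / 3 + ε) ≤ (∑ i, volume (S i)) / A := by
    refine h1.trans ?_
    rw [ENNReal.div_eq_inv_mul, Finset.mul_sum]
    refine Finset.sum_le_sum fun i _ => ?_
    rw [← ENNReal.div_eq_inv_mul]
    exact ENNReal.div_le_div_left (hle i) _
  rcases eq_or_ne A 0 with h0 | h0
  · rw [h0, mul_zero]
    exact zero_le
  rcases eq_or_ne A ⊤ with ht | ht
  · rw [ht, ENNReal.div_top] at h2
    have hpos : 0 < ENNReal.ofReal (1 / 3 + ε) := ENNReal.ofReal_pos.2 (by linarith)
    exact absurd h2 (not_le.2 hpos)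
  exact (ENNReal.le_div_iff_mul_le (Or.inl h0) (Or.inl ht)).1 h2

end Vale.Agent.Results.P243.UniversalBound
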